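import Vale.Agent.P352X.Api3a
import Vale.Agent.P352X.R.LIE
import Vale.Agent.P352X.R.KER
import Vale.Agent.P352.H246.Alg

/-!
# P352X, row G1: operators on test functions
-/

noncomputable section

open Set Filter Topology
open scoped SchwartzMap ContDiff

namespace Vale.Agent.P352X

open Vale.Agent.P352 Vale.Agent.P352.GF Vale.Agent.P352.H246 Vale.Agent.P352.H755
open Vale.Agent.P352.H15

namespace G1

variable {A B : Fn → Fn} {f g : Fn} {O O' K K' : Set V} {N N' : Fn → ℝ}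

/-- operators that are continuous on Schwartz space -/
def Cl (A : Fn → Fn) : Prop := ∃ L : Sch →L[ℝ] Sch, ∀ g, ev (L g) = A (ev g)

/-- local operators -/
def Lo (A : Fn → Fn) : Prop := Cl A ∧ ∀ f, tsupport (A f) ⊆ tsupport f

theorem Cl.test (h : Cl A) (hf : GF.IsTest f) : GF.IsTest (A f) := by
  obtain ⟨L, h⟩ := h
  obtain ⟨g, rfl⟩ := hf
  exact ⟨_, h g⟩

theorem Lo.mem (h : Lo A) (hf : In O f) : In O (A f) :=
  ⟨h.1.test hf.1, hf.2.1.of_isClosed_subset (isClosed_tsupport _) (h.2 f), (h.2 f).trans hf.2.2⟩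

theorem lo_id : Lo fun f => f := ⟨⟨.id _ _, fun _ => rfl⟩, fun _ => le_rfl⟩

theorem Lo.comp (h : Lo A) (h' : Lo B) : Lo fun f => A (B f) := by
  obtain ⟨⟨L, h⟩, k⟩ := h
  obtain ⟨⟨L', h'⟩, k'⟩ := h'
  exact ⟨⟨L.comp L', fun g => (h _).trans (congrArg A (h' g))⟩, fun f => (k _).trans (k' f)⟩

theorem Lo.add (h : Lo A) (h' : Lo B) : Lo fun f z => A f z + B f z := by
  obtain ⟨⟨L, h⟩, k⟩ := h
  obtain ⟨⟨L', h'⟩, k'⟩ := h'
  exact ⟨⟨L + L', fun g => congrArg₂ (· + ·) (h g) (h' g)⟩, fun f =>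
    (tsupport_add (A f) (B f)).trans (union_subset (k f) (k' f))⟩

theorem Lo.mul {q : V → ℂ} (hq : q.HasTemperateGrowth) (h : Lo A) : Lo fun f z => q z * A f z :=
  Lo.comp (A := fun f z => q z * f z) ⟨⟨(SchwartzMap.smulLeftCLM ℂ q).restrictScalars ℝ, fun g =>
    funext fun z => SchwartzMap.smulLeftCLM_apply_apply hq g z⟩, fun _ => tsupport_mul_subset_right⟩ h

theorem Lo.neg (h : Lo A) : Lo fun f z => -A f z := by
  simpa using h.mul (.const (-1))

theorem Lo.sum {ι : Type} (s : Finset ι) {A : ι → Fn → Fn} (h : ∀ i, Lo (A i)) :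
    Lo fun f z => ∑ i ∈ s, A i f z := by
  classical
  induction s using Finset.induction_on with
  | empty => simpa using lo_id.mul (.const 0)
  | insert a s ha ih => simpa only [Finset.sum_insert ha] using (h a).add ih

theorem pd_eq {z : V} (h : DifferentiableAt ℝ f z) (m : Ix) :
    pd m f z = fderiv ℝ f z (bas m 1) := by
  rw [← h.lineDeriv_eq_fderiv, lineDeriv, pd]
  simp only [← bas_smul]
  rfl

theorem lo_pd (m : Ix) : Lo (pd m) := by
  refine ⟨⟨LineDeriv.lineDerivOpCLM ℝ Sch (bas m 1), fun g => funext fun z =>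
    (pd_eq g.differentiableAt m).symm⟩, fun f => closure_minimal (fun z hz => by_contra fun h => hz ?_)
      (isClosed_tsupport f)⟩
  have h0 := notMem_tsupport_iff_eventuallyEq.1 h
  rw [pd_eq ((differentiableAt_const 0).congr_of_eventuallyEq h0), h0.fderiv_eq]
  simp

theorem lo_bar : Lo bar := ⟨⟨SchwartzMap.postcompCLM (Complex.conjCLE : ℂ →L[ℝ] ℂ), fun _ => rfl⟩,
  fun f => (tsupport_bar f).le⟩

theorem tg_lin (L : V →L[ℝ] ℝ) : Function.HasTemperateGrowth fun z => (L z : ℂ) :=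
  (Complex.ofRealCLM.comp L).hasTemperateGrowth

theorem lo_dv (h : V) : Lo (dv h) := Lo.sum _ fun m => (lo_pd m).mul (.const _)

theorem lo_box : Lo box := Lo.sum _ fun m => ((lo_pd m).comp (lo_pd m)).mul (.const _)

/-- multiplication by `be` -/
def bm (f : Fn) : Fn := fun z => (be z : ℝ) * f z

theorem lo_bm : Lo bm := lo_id.mul (tg_lin beL)

theorem lo_Bc : Lo Bc := by
  have := ((lo_dv va).mul (tg_lin alL)).add ((lo_dv vb).mul (tg_lin beL)).neg
  simp only [← sub_eq_add_neg] at this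
  exact this

theorem lo_Kc (Δ : ℝ) : Lo (Kc Δ) := by
  refine (Lo.sum _ fun m => (lo_pd m).mul ?_).neg.add (lo_id.mul (tg_lin ((2 * Δ - 8) • beL)))
  have p := fun n : Ix => tg_lin (ContinuousLinearMap.proj n)
  refine Eq.mp (congrArg _ (funext fun z => ?_)) ((((tg_lin beL).mul (p m)).add
    ((tg_lin beL).mul (p m))).sub ((((((p 0).mul (p 0)).sub ((p 1).mul (p 1))).sub
      ((p 2).mul (p 2))).sub ((p 3).mul (p 3))).mul (.const (va m : ℂ))))
  simp [cK, md_va, mdot_eq z z]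
  ring

/-- translates -/
def tr (y : V) (f : Fn) : Fn := fun z => f (z + y)

theorem cl_tr (y : V) : Cl (tr y) :=
  ⟨SchwartzMap.compSubConstCLM ℝ (-y), fun g => funext fun z => congrArg g (sub_neg_eq_add z y)⟩

theorem tr_tr (x y : V) (f : Fn) : tr x (tr y f) = tr (x + y) f :=
  funext fun z => congrArg f (add_assoc z x y)

theorem tr_zero (f : Fn) : tr 0 f = f := funext fun z => congrArg f (add_zero z)

theorem in_iff : In O f ↔ ContDiff ℝ ∞ f ∧ HasCompactSupport f ∧ tsupport f ⊆ O :=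
  ⟨fun ⟨⟨g, e⟩, h⟩ => ⟨e ▸ g.smooth ⊤, h⟩, fun ⟨a, b, c⟩ => ⟨⟨b.toSchwartzMap a, rfl⟩, b, c⟩⟩

theorem diff (h : In O f) : Differentiable ℝ f := (in_iff.1 h).1.differentiable (by simp)

theorem mono (h : In O f) (k : O ⊆ O') : In O' f := ⟨h.1, h.2.1, h.2.2.trans k⟩

theorem all (h : In O f) : In univ f := mono h (subset_univ _)

theorem in_comp (h : In O f) (e : V ≃ₜ V) (he : ContDiff ℝ ∞ e) (k : ∀ z, e z ∈ O → z ∈ O') :
    In O' fun z => f (e z) :=
  in_iff.2 ⟨(in_iff.1 h).1.comp he, h.2.1.comp_homeomorph e, fun z hz =>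
    k z (h.2.2 (tsupport_comp_subset_preimage f e.continuous hz))⟩

theorem in_tr (h : In O f) (y : V) (k : ∀ z, z + y ∈ O → z ∈ O') : In O' (tr y f) :=
  in_comp h (.addRight y) (contDiff_id.add contDiff_const) k

theorem in_gap (h : In O f) (w : R2) (k : ∀ z, gap w z ∈ O → z ∈ O') :
    In O' fun z => f (gap w z) := by
  simpa using in_comp h (ContinuousLinearEquiv.equivOfInverse (gapL w) (gapL (-w))
    (fun z => by simp [gap_gap]) fun z => by simp [gap_gap]).toHomeomorph (gapL w).contDiff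
    (by simpa using k)

theorem in_scp (h : In O f) {r s : ℝ} (hr : 0 < r) (hs : 0 < s) (k : ∀ z, scp r s z ∈ O → z ∈ O') :
    In O' fun z => f (scp r s z) :=
  in_comp h (ContinuousLinearEquiv.equivOfInverse (scpL r s) (scpL r⁻¹ s⁻¹)
    (fun z => by simp [scp_scp _ (inv_pos.2 hr).le (inv_pos.2 hs).le, hr.ne', hs.ne'])
    fun z => by simp [scp_scp _ hr.le hs.le, hr.ne', hs.ne']).toHomeomorph (scpL r s).contDiff k

theorem in_add (h : In O f) (h' : In O g) (a : ℂ) : In O (f + a • g) := by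
  have k := (lo_id.mul (.const a)).mem h'
  obtain ⟨a1, a2, a3⟩ := in_iff.1 h
  obtain ⟨b1, b2, b3⟩ := in_iff.1 k
  exact in_iff.2 ⟨a1.add b1, a2.add b2, (tsupport_add _ _).trans (union_subset a3 b3)⟩

theorem in_div (h : In O f) (k : ∀ z ∈ O, be z < 0) : ∃ g, In O g ∧ bm g = f := by
  have s : tsupport (fun z => (be z : ℂ)⁻¹ * f z) ⊆ tsupport f := tsupport_mul_subset_right
  refine ⟨fun z => (be z : ℂ)⁻¹ * f z, in_iff.2 ⟨contDiff_iff_contDiffAt.2 fun z => ?_,
    h.2.1.mul_left, s.trans h.2.2⟩, funext fun z => ?_⟩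
  · by_cases hz : z ∈ tsupport f
    · exact (((Complex.ofRealCLM.comp beL).contDiff.contDiffAt).inv
        (Complex.ofReal_ne_zero.2 (k z (h.2.2 hz)).ne)).mul (in_iff.1 h).1.contDiffAt
    · exact contDiffAt_const.congr_of_eventuallyEq
        (notMem_tsupport_iff_eventuallyEq.1 fun e => hz (s e))
  · by_cases hz : z ∈ tsupport f
    · exact mul_inv_cancel_left₀ (Complex.ofReal_ne_zero.2 (k z (h.2.2 hz)).ne) _
    · simp [bm, image_eq_zero_of_notMem_tsupport hz]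

theorem dv_eq {z : V} (hf : DifferentiableAt ℝ f z) (h : V) : dv h f z = fderiv ℝ f z h := by
  conv_rhs => rw [pi_eq_sum_univ' h]
  simp only [dv, pd_eq hf, map_sum, map_smul, Complex.real_smul]
  refine Finset.sum_congr rfl fun m _ => ?_
  congr 2
  funext n
  simp [bas, Pi.single_apply]

theorem Kc_eq {z : V} (hf : DifferentiableAt ℝ f z) (Δ : ℝ) :
    Kc Δ f z = -fderiv ℝ f z (cK va z) + ((2 * Δ - 8) * be z : ℝ) * f z := by
  rw [← dv_eq hf]
  rfl

theorem Kc_bar (hf : Differentiable ℝ f) (Δ : ℝ) : Kc Δ (bar f) = bar (Kc Δ f) := by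
  funext z
  have h := (Complex.conjCLE : ℂ →L[ℝ] ℂ).hasFDerivAt.comp z (hf z).hasFDerivAt
  rw [Kc_eq (f := bar f) h.differentiableAt, bar, bar, Kc_eq (hf z),
    show fderiv ℝ (bar f) z = _ from h.fderiv]
  simp

theorem Kc_add (hf : Differentiable ℝ f) (hg : Differentiable ℝ g) (Δ : ℝ) (a : ℂ) :
    Kc Δ (f + a • g) = Kc Δ f + a • Kc Δ g := by
  funext z
  have h := (hf z).hasFDerivAt.add ((hg z).hasFDerivAt.const_smul a)
  rw [Kc_eq h.differentiableAt, h.fderiv]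
  simp [Kc_eq (hf z), Kc_eq (hg z)]
  ring

theorem Kc_lin (hf : Differentiable ℝ f) (L : V →L[ℝ] V) (s Δ : ℝ) (h1 : ∀ z, be (L z) = s * be z)
    (h2 : ∀ z, cK va (L z) = s • L (cK va z)) (z : V) :
    Kc Δ f (L z) = s * Kc Δ (fun z => f (L z)) z := by
  have h := (hf (L z)).hasFDerivAt.comp z L.hasFDerivAt
  rw [Kc_eq (f := fun z => f (L z)) h.differentiableAt, Kc_eq (hf _),
    show fderiv ℝ (fun z => f (L z)) z = _ from h.fderiv, h1, h2]
  simp
  ring

theorem Kc_tr (hf : Differentiable ℝ f) (y : V) (Δ : ℝ) (z : V) :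
    tr (-y) (Kc Δ (tr y f)) z =
      -fderiv ℝ f z (cK va (z - y)) + ((2 * Δ - 8) * (be z - be y) : ℝ) * f z := by
  rw [tr, Kc_eq (f := tr y f) ((hf _).comp _ (differentiableAt_id.add_const y)),
    show fderiv ℝ (tr y f) (z + -y) = _ from fderiv_comp_add_right y, tr]
  simp [← sub_eq_add_neg]

theorem al_cK (z : V) : al (cK va z) = d2 (tx z) (tx z) := by
  simp [cK, mdot_null]
  ring

theorem be_cK (z : V) : be (cK va z) = 2 * be z * be z := by simp [cK, md_va]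

theorem tx_cK (z : V) : tx (cK va z) = (2 * be z) • tx z := by simp [cK, md_va]

/-- bounds on the test functions with support in `K` -/
def BD (K : Set V) (N : Fn → ℝ) : Prop :=
  ∃ (m : ℕ) (C : ℝ), ∀ g : Sch, tsupport g ⊆ K → N (ev g) ≤ C * sn m g

theorem BD.nn (h : BD K N) :
    ∃ (m : ℕ) (C : ℝ), 0 ≤ C ∧ ∀ g : Sch, tsupport g ⊆ K → N (ev g) ≤ C * sn m g :=
  let ⟨m, C, h⟩ := h
  ⟨m, |C|, abs_nonneg C, fun g k =>
    (h g k).trans (mul_le_mul_of_nonneg_right (le_abs_self C) (Lie.sn_nonneg m g))⟩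

theorem BD.comp (h : BD K' N) (hA : Cl A) (k : ∀ f, tsupport f ⊆ K → tsupport (A f) ⊆ K') :
    BD K fun f => N (A f) := by
  obtain ⟨m, C, C0, h⟩ := h.nn
  obtain ⟨L, hA⟩ := hA
  obtain ⟨C', m', -, h'⟩ := ST.clm_sn' L m
  refine ⟨m', C * C', fun g hg => ?_⟩
  rw [mul_assoc, show (fun f => N (A f)) (ev g) = N (ev (L g)) from congrArg N (hA g).symm]
  refine (h _ (by rw [show ⇑(L g) = _ from hA g]; exact k _ hg)).trans
    (mul_le_mul_of_nonneg_left ?_ C0)
  simpa only [sn_eq] using h' g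

theorem BD.lo (h : BD K N) (hA : Lo A) : BD K fun f => N (A f) :=
  h.comp hA.1 fun f k => (hA.2 f).trans k

theorem BD.add (h : BD K N) (h' : BD K N') : BD K fun f => N f + N' f := by
  obtain ⟨m, C, C0, h⟩ := h.nn
  obtain ⟨m', C', C1, h'⟩ := h'.nn
  refine ⟨max m m', C + C', fun g hg => ?_⟩
  linarith [h g hg, h' g hg, mul_le_mul_of_nonneg_left (Lie.sn_mono (le_max_left m m') g) C0,
    mul_le_mul_of_nonneg_left (Lie.sn_mono (le_max_right m m') g) C1]

theorem BD.le (h : BD K N) (hK : IsCompact K) (a : ℝ) (k : ∀ f, In K f → N' f ≤ |a| * N f) :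
    BD K N' :=
  let ⟨m, C, h⟩ := h
  ⟨m, |a| * C, fun g hg => (k _ ⟨⟨g, rfl⟩, hK.of_isClosed_subset (isClosed_tsupport _) hg, hg⟩).trans
    ((mul_le_mul_of_nonneg_left (h g hg) (abs_nonneg a)).trans_eq (mul_assoc _ _ _).symm)⟩

/-- the half space `be < u` -/
def Hs (u : ℝ) : Set V := {z | be z < u}

theorem ev_hs {u : ℝ} (hK : IsCompact K) (h : K ⊆ Hs u) : ∀ᶠ v in 𝓝 u, K ⊆ Hs v :=
  hK.eventually_forall_of_forall_eventually fun _ hz =>
    ContinuousAt.eventually_lt (f := fun q : ℝ × V => be q.2) (by fun_prop) continuousAt_fst (h hz)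

theorem ex_hs (hK : IsCompact K) : ∀ᶠ u in atTop, K ⊆ Hs u := by
  obtain ⟨b, hb⟩ := (hK.image cont_be).bddAbove
  exact (eventually_gt_atTop b).mono fun u hu z hz => (hb ⟨z, hz, rfl⟩).trans_lt hu

theorem mem_Rc {r : ℝ} {z : V} :
    z ∈ Rc r 0 ↔ be z < 0 ∧ 0 < 1 + 2 * r * be z ∧ 0 < al z + r * mu z := by
  rw [Rc, mem_ofPred_eq, sub_zero]
  rfl

theorem ex_rc {r : ℝ} (hK : IsCompact K) (h : K ⊆ Rc r 0) : ∃ r' > r, K ⊆ Rc r' 0 := by
  have k : ∀ᶠ r' in 𝓝 r, ∀ z ∈ K, z ∈ Rc r' 0 := hK.eventually_forall_of_forall_eventually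
    fun z hz => by
      obtain ⟨h1, h2, h3⟩ := mem_Rc.1 (h hz)
      filter_upwards [ContinuousAt.eventually_lt (f := fun q : ℝ × V => be q.2) (x₀ := (r, z))
        (by fun_prop) continuousAt_const h1, ContinuousAt.eventually_lt (x₀ := (r, z))
          (g := fun q : ℝ × V => 1 + 2 * q.1 * be q.2) continuousAt_const (by fun_prop) h2,
        ContinuousAt.eventually_lt (x₀ := (r, z)) (g := fun q : ℝ × V => al q.2 + q.1 * mu q.2)
          continuousAt_const (by fun_prop) h3] with q a b c using mem_Rc.2 ⟨a, b, c⟩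
  exact ((k.filter_mono nhdsWithin_le_nhds).and (self_mem_nhdsWithin (s := Ioi r))).exists.imp
    fun _ q => ⟨q.2, q.1⟩

theorem ex_cone (hK : IsCompact K) (h : K ⊆ Hs 0) :
    ∃ t r : ℝ, 0 < r ∧ (fun z => z + t • va) '' K ⊆ Rc r 0 := by
  obtain ⟨b, hb⟩ := (hK.image cont_al).bddBelow
  obtain ⟨r, r0, hr⟩ := ex_rc (r := 0) (hK.image (f := fun z => z + (1 - b) • va) (by fun_prop)) (by
    rintro _ ⟨z, hz, rfl⟩
    have := hb ⟨z, hz, rfl⟩
    exact mem_Rc.2 ⟨by simpa [Hs] using h hz, by simp, by simp; linarith⟩)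
  exact ⟨_, r, r0, hr⟩

end G1

end Vale.Agent.P352X
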