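import Vale.Agent.P352X.R.G1.A
import Vale.Agent.P352X.Api1
import Vale.Agent.P352X.Main0

/-!
# P352X, row G1: covariant distributions, generators
-/

noncomputable section

open Set Filter Topology Metric
open scoped SchwartzMap ContDiff

namespace Vale.Agent.P352X

open Vale.Agent.P352 Vale.Agent.P352.GF Vale.Agent.P352.H246 Vale.Agent.P352.H755
open Vale.Agent.P352.H15
open UniformSpace (Completion)
open Complex (I)

namespace G1

section hilbert

variable {H : Type*} [NormedAddCommGroup H] [InnerProductSpace ℂ H] {f : Fn}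

theorem ext_lin {φ : Fn → H} (h : ∀ (f g : Fn) (a : ℂ), In univ f → In univ g →
    φ (fun z => f z + a * g z) = φ f + a • φ g) : ∃ Φ : Fn →ₗ[ℂ] H, ∀ f, In univ f → Φ f = φ f := by
  have z : In univ (0 : Fn) := ⟨⟨0, rfl⟩, .zero, subset_univ _⟩
  have k : ∀ f g a, In univ f → In univ g → φ (f + a • g) = φ f + a • φ g := h
  have k0 : φ 0 = 0 := by simpa using k 0 0 1 z z
  let S : Submodule ℂ Fn :=
    { carrier := {f | In univ f}
      add_mem' := fun a b => by simpa using in_add a b 1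
      zero_mem' := z
      smul_mem' := fun a _ b => by simpa using in_add z b a }
  obtain ⟨Φ, e⟩ := LinearMap.exists_extend (⟨⟨fun f => φ f, fun f g => by
    simpa using k f g 1 f.2 g.2⟩, fun a f => by simpa [k0] using k 0 f a z f.2⟩ : S →ₗ[ℂ] H)
  exact ⟨Φ, fun f hf => DFunLike.congr_fun e ⟨f, hf⟩⟩

theorem der {Φ : Fn →ₗ[ℂ] H} (hb : ∀ K, IsCompact K → BD K fun f => ‖Φ f‖) (hf : In univ f)
    {g : ℝ → V →L[ℝ] V} {a : ℝ → V} {g' : V →L[ℝ] V} {a' : V} (hg : HasDerivAt g g' 0)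
    (ha : HasDerivAt a a' 0) (g0 : g 0 = 1) (a0 : a 0 = 0)
    (ht : ∀ t, In univ fun z => f (g t z + a t)) :
    HasDerivAt (fun t => Φ fun z => f (g t z + a t)) (Φ fun z => fderiv ℝ f z (g' z + a')) 0 := by
  obtain ⟨R, hR⟩ := hf.2.1.isBounded.subset_closedBall 0
  obtain ⟨m, C, hC⟩ := hb _ (isCompact_closedBall 0 (2 * (|R| + 1)))
  have z0 : ∀ z, |R| < ‖z‖ → z ∉ tsupport f := fun z hz h =>
    hz.not_ge ((mem_closedBall_zero_iff.1 (hR h)).trans (le_abs_self R))
  have z1 : ∀ z ∉ tsupport f, fderiv ℝ f z (g' z + a') = 0 := fun z hz => by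
    rw [image_eq_zero_of_notMem_tsupport fun h => hz (tsupport_fderiv_subset ℝ h)]
    rfl
  obtain ⟨F', hF'⟩ : GF.IsTest fun z => fderiv ℝ f z (g' z + a') := (in_iff.2
    ⟨((in_iff.1 hf).1.fderiv_right le_rfl).clm_apply (g'.contDiff.add contDiff_const),
      .intro hf.2.1 z1, subset_univ _⟩).1
  choose Ft hFt using fun t => (ht t).1
  obtain ⟨F, rfl⟩ := hf.1
  have d := Lie.der (F := F) (F' := F') (Ft := Ft) hg ha g0 a0
    (.of_forall fun t => congrFun (hFt t)) (congrFun hF')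
  have s : Continuous fun G : Sch => C * sn m (G - F') := by
    simp only [sn_eq]
    exact continuous_const.mul ((ST.continuous_sn m).comp (continuous_id.sub continuous_const))
  have d' := (s.tendsto F').comp d
  rw [sub_self, show sn m (0 : Sch) = 0 from map_zero _, mul_zero] at d'
  rw [hasDerivAt_iff_tendsto_slope_zero, tendsto_iff_norm_sub_tendsto_zero]
  refine squeeze_zero' (.of_forall fun _ => norm_nonneg _) ?_ d'
  filter_upwards [mem_nhdsWithin_of_mem_nhds (hg.continuousAt.eventually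
      (closedBall_mem_nhds _ one_half_pos)), mem_nhdsWithin_of_mem_nhds
    (ha.continuousAt.eventually (closedBall_mem_nhds _ one_pos))] with t h1 h2
  refine le_of_eq_of_le ?_ (hC _ (closure_minimal (fun z hz => mem_closedBall_zero_iff.2
    (le_of_not_gt fun k => hz ?_)) isClosed_closedBall))
  · simp only [zero_add, ← hFt t, ← hF', g0, a0, one_apply_eq_self, add_zero,
      ← map_sub, ← LinearMap.map_smul_of_tower]
    rfl
  · rw [g0, dist_eq_norm] at h1
    rw [a0, dist_zero_right] at h2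
    have e1 := ((g t - 1).le_opNorm z).trans (mul_le_mul_of_nonneg_right h1 (norm_nonneg z))
    have e2 : ‖z‖ ≤ ‖g t z + a t‖ + ‖(g t - 1) z‖ + ‖a t‖ :=
      le_of_eq_of_le (by simp) (norm_sub_le_of_le (norm_sub_le _ _) le_rfl)
    have e3 := abs_nonneg R
    change t⁻¹ • (ev (Ft t) z - ev F z) - ev F' z = 0
    rw [hFt, hF']
    simp only [z1 z (z0 z (by linarith)), image_eq_zero_of_notMem_tsupport (z0 z (by linarith)),
      image_eq_zero_of_notMem_tsupport (z0 (g t z + a t) (by linarith))]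
    simp

variable [CompleteSpace H] {M : VonNeumannAlgebra H} {ξ ψ ψ' φ φ' : H}

theorem pr_symm (h : Pr M ξ ψ ψ') : Pr M ξ ψ' ψ := fun Z hZ => by
  have k := h (star Z) (star_mem hZ)
  rw [star_star] at k
  rw [← inner_conj_symm, ← k, inner_conj_symm]

theorem pr_sub (h : Pr M ξ ψ ψ') (h' : Pr M ξ φ φ') : Pr M ξ (ψ - φ) (ψ' - φ') := fun Z hZ => by
  rw [inner_sub_right, inner_sub_left, h Z hZ, h' Z hZ]

end hilbert

variable {D : Type*} [NormedAddCommGroup D] [InnerProductSpace ℂ D] {c : Ctx D}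
  {Φ Φ' : Fn →ₗ[ℂ] Completion D} {x y : ℝ} {f g : Fn}

theorem cbd {φ : Fn → Completion D} (h : c.Cov2 φ x y) {K : Set V} (hK : IsCompact K) :
    BD K fun f => ‖φ f‖ := h.bd K hK

theorem cov_congr {φ ψ : Fn → Completion D} (h : c.Cov2 φ x y) (e : ∀ f, In univ f → ψ f = φ f) :
    c.Cov2 ψ x y where
  lin f g a hf hg := by
    rw [e f hf, e g hg, ← h.lin f g a hf hg]
    exact e _ (in_add hf hg a)
  bd K hK := (cbd h hK).le (N' := fun f => ‖ψ f‖) hK 1 fun f hf => by simp [e f (all hf)]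
  tra a f hf := by
    rw [e f hf, ← h.tra a f hf]
    exact congrArg _ (e _ (in_tr hf a fun _ _ => trivial))
  rot w f hf := by rw [e f hf, e _ (in_gap hf w fun _ _ => trivial), h.rot w f hf]
  sca r s f hr hs hf := by rw [e f hf, e _ (in_scp hf hr hs fun _ _ => trivial), h.sca r s f hr hs hf]
  perp f hf := by rw [e f hf, h.perp f hf]

theorem ut_phi (h : c.Cov2 Φ x y) (hf : In univ f) (a : V) : Ut c.Q a (Φ f) = Φ (tr (-a) f) := by
  have k := h.tra a _ (in_tr hf (-a) fun _ _ => trivial)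
  rwa [show (fun z => tr (-a) f (z + a)) = f from funext fun z => by simp [tr]] at k

theorem gn_of {W : ℝ → Completion D →L[ℂ] Completion D} (h : c.Cov2 Φ x y) (hf : In univ f)
    {g : ℝ → V →L[ℝ] V} {a : ℝ → V} {g' : V →L[ℝ] V} {a' : V} (hg : HasDerivAt g g' 0)
    (ha : HasDerivAt a a' 0) (g0 : g 0 = 1) (a0 : a 0 = 0) {σ : ℝ → V → V}
    (e : ∀ t z, g t z + a t = σ t z) (ht : ∀ t, In univ fun z => f (σ t z))
    (hW : ∀ t, W t (Φ f) = Φ fun z => f (σ t z)) {k : Fn}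
    (hk : ∀ z, k z = -fderiv ℝ f z (g' z + a')) : Gn W (Φ f) (I • Φ k) := by
  have d := der h.bd hf hg ha g0 a0 (by simpa only [e] using ht)
  simp only [e, ← hW] at d
  rw [Gn, smul_smul, Complex.I_mul_I, neg_one_smul, ← map_neg]
  convert d
  simp [hk]

theorem gn_ut (h : c.Cov2 Φ x y) (hf : In univ f) (v : V) :
    Gn (fun t => Ut c.Q (t • v)) (Φ f) (I • Φ (dv v f)) :=
  gn_of h hf (hasDerivAt_const 0 1) ((hasDerivAt_id' (0 : ℝ)).smul_const v).fun_neg rfl (by simp)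
    (σ := fun t z => z + -(t • v)) (fun _ _ => rfl) (fun _ => in_tr hf _ fun _ _ => trivial)
    (fun _ => ut_phi h hf _) fun z => by simp [dv_eq (diff hf z)]

theorem gn_mi (h : c.Cov2 Φ x y) (hf : In univ f) (i : Fin 2) :
    Gn (Mi c.Q i) (Φ f) (I • Φ (Mc i f)) := by
  have d := hasDerivAt_id' (0 : ℝ)
  refine gn_of h hf (((d.smul_const ((mdL (ex i)).smulRight va - beL.smulRight (ex i))).const_add
    1).fun_add (((d.fun_pow 2).div_const 2).smul_const (beL.smulRight va))) (hasDerivAt_const 0 0)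
    (by simp) rfl (σ := fun t => gap (-(t • e2 i))) (fun t z => null_ext ?_ (by simp) (by simp [smul_comm t]))
    (fun _ => in_gap hf _ fun _ _ => trivial) (fun t => ?_) fun z => ?_
  · simp [md_ex, d2_neg, d2_neg_l, d2_smul, d2_smul_l]
    ring
  · have k := h.rot (t • e2 i) _ (in_gap hf (-(t • e2 i)) fun _ _ => trivial)
    simp only [gap_gap, neg_add_cancel, gap_zero] at k
    exact k
  · simp [Mc, dv_eq (diff hf z), md_ex]
    ring

theorem w1 (r s : ℝ) :
    ((r ^ (-1 : ℝ) * s ^ (-1 : ℝ) : ℝ) : ℂ) = (r : ℂ)⁻¹ * (s : ℂ)⁻¹ := by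
  simp [Real.rpow_neg_one]

theorem gn_bo (h : c.Cov2 Φ (-1) (-1)) (hf : In univ f) : Gn (Bo c.Q) (Φ f) (I • Φ (Bc f)) := by
  have e : ∀ t, Real.exp t * Real.exp (-t) = 1 := fun t => by simp [← Real.exp_add]
  have e' : ∀ t, Real.exp (-t) * Real.exp t = 1 := fun t => by simp [← Real.exp_add]
  refine gn_of h hf (((((hasDerivAt_neg' (0 : ℝ)).exp.sub_const 1).smul_const
    (alL.smulRight va)).const_add 1).fun_add (((Real.hasDerivAt_exp 0).sub_const 1).smul_const
      (beL.smulRight vb))) (hasDerivAt_const 0 0) (by simp) rfl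
    (σ := fun t => scp (Real.exp (-t)) (Real.exp t)) (fun t z => null_ext ?_ ?_ (by simp [e']))
    (fun _ => in_scp hf (Real.exp_pos _) (Real.exp_pos _) fun _ _ => trivial) (fun t => ?_)
    fun z => ?_
  · simp
    ring
  · simp
    ring
  · have k := h.sca _ _ _ (Real.exp_pos t) (Real.exp_pos (-t))
      (in_scp hf (Real.exp_pos (-t)) (Real.exp_pos t) fun _ _ => trivial)
    rwa [w1, ← mul_inv, ← Complex.ofReal_mul, e, funext fun z =>
      congrArg f (scp_scp z (Real.exp_pos _).le (Real.exp_pos _).le), e, e', funext fun z =>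
      congrArg f (scp_one z), Complex.ofReal_one, inv_one, one_smul] at k
  · simp [Bc, dv_eq (diff hf z)]
    ring

theorem tsupp_tr (f : Fn) (y : V) {z : V} (h : z ∈ tsupport (tr y f)) : z + y ∈ tsupport f :=
  tsupport_comp_subset_preimage f (continuous_add_const y) h

/-- the class of pairs of distributions of dimension two -/
structure C2 (c : Ctx D) (Φ Φ' : Fn →ₗ[ℂ] Completion D) : Prop where
  cov : c.Cov2 Φ (-1) (-1)
  cov' : c.Cov2 Φ' (-1) (-1)
  pr : ∀ r > 0, ∀ f, In (Rc r 0) f → Pr (c.N (Rc r 0)) c.Om (Φ f) (Φ' (bar f))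

theorem C2.symm (h : C2 c Φ Φ') : C2 c Φ' Φ :=
  ⟨h.cov', h.cov, fun r hr f hf => pr_symm (by simpa only [bar_bar] using h.pr r hr _ hf.bar)⟩

theorem ut_norm (t : T2 c) (a : V) (z : Completion D) : ‖Ut c.Q a z‖ = ‖z‖ :=
  ContinuousLinearMap.norm_map_of_mem_unitary (t.grp.uni _ _ _) z

theorem C2.dom (t : T2 c) (h : C2 c Φ Φ') {K : Set V} (hK : IsCompact K) (k : K ⊆ Hs 0) :
    (∀ f, In K f → Dm c.SK (Φ f)) ∧ BD K fun f => ‖gen c.SK (Φ f)‖ := by
  obtain ⟨s, r, r0, hr⟩ := ex_cone hK k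
  obtain ⟨C, hC⟩ := t.kd.a r r0
  have hK' := hK.image (f := fun z => z + s • va) (by fun_prop)
  have m : ∀ z, z + -s • va ∈ K → z ∈ (fun z => z + s • va) '' K := fun z hz => ⟨_, hz, by simp⟩
  have q : ∀ f, In K f → Dm c.SK (Φ f) ∧ ‖gen c.SK (Φ f)‖ ≤ C * (‖Φ (tr (-s • va) f)‖ +
      ‖Φ' (bar (tr (-s • va) f))‖ + ‖Φ (Bc (tr (-s • va) f))‖) := fun f hf => by
    have a := in_tr hf (-s • va) m
    have b := gn_bo h.cov (all a)
    obtain ⟨a1, a2⟩ := hC _ _ (h.pr r r0 _ (mono a hr)) b.dm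
    obtain ⟨a3, a4⟩ := a1.comm (t.grp.pa_S (-s))
    rw [show Pa c.Q (-s) (Φ (tr (-s • va) f)) = Φ f from h.cov.tra _ f (all hf)] at a3 a4
    rw [b.gen_eq, norm_smul, Complex.norm_I, one_mul] at a2
    exact ⟨a3, by rwa [a4, Pa, ut_norm t]⟩
  refine ⟨fun f hf => (q f hf).1, BD.le (((((cbd h.cov hK').add ((cbd h.cov' hK').lo
    lo_bar)).add ((cbd h.cov hK').lo lo_Bc))).comp (cl_tr (-s • va)) fun f hf z hz =>
      m z (hf (tsupp_tr f _ hz))) hK C fun f hf =>
        (q f hf).2.trans (mul_le_mul_of_nonneg_right (le_abs_self C) (by positivity))⟩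

theorem C2.dm (t : T2 c) (h : C2 c Φ Φ') (hf : In (Hs 0) f) : Dm c.SK (Φ f) :=
  (h.dom t hf.2.1 hf.2.2).1 f ⟨hf.1, hf.2.1, le_rfl⟩

end G1

end Vale.Agent.P352X
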